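import Vale.Agent.P248.MC.Ifc

/-! # P248/MC: basic facts on `Z V y` (helper618): integrability, positivity, homogeneity,
`E ⟨x,y⟩ = N`. -/

open MeasureTheory Set Matrix Filter Topology
open scoped Pointwise

namespace Vale.Agent.P248.MC

open P254.R304

variable {N : ℕ} {V : Set (Fin N → ℝ)} {y : Fin N → ℝ}

theorem tilt_zero (y x : Fin N → ℝ) : tilt 0 (-y) x = Real.exp (-(x ⬝ᵥ y)) := by
  unfold tilt
  congr 1
  simp [dotProduct_comm]

theorem limDens_eq (V : Set (Fin N → ℝ)) (y : Fin N → ℝ) :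
    limDens 0 (-y) V = V.indicator fun x => Real.exp (-(x ⬝ᵥ y)) := by
  unfold limDens
  congr 1
  funext x
  exact tilt_zero y x

theorem exists_good (hV : PCone V) (hy : Pos V y) : ∃ a, 0 < a ∧ Good (limDens 0 (-y) V) (Real.exp 0) a := by
  obtain ⟨a, ha, h⟩ := hy
  refine ⟨a, ha, good_limDens Matrix.PosSemidef.zero hV.closed hV.int ha fun x hx => ?_⟩
  have := h x hx
  rw [neg_dotProduct, dotProduct_comm]
  linarith

theorem mul_limDens (V : Set (Fin N → ℝ)) (y : Fin N → ℝ) (p : (Fin N → ℝ) → ℝ) :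
    (fun x => p x * limDens 0 (-y) V x) = V.indicator fun x => p x * Real.exp (-(x ⬝ᵥ y)) := by
  funext x
  rw [limDens_eq]
  by_cases hx : x ∈ V
  · rw [indicator_of_mem hx, indicator_of_mem hx]
  · rw [indicator_of_notMem hx, indicator_of_notMem hx, mul_zero]

/-- polynomial moments are integrable -/
theorem integrableOn (hV : PCone V) (hy : Pos V y) {p : (Fin N → ℝ) → ℝ} (hp : PolyGrowth p) :
    IntegrableOn (fun x => p x * Real.exp (-(x ⬝ᵥ y))) V := by
  obtain ⟨a, _, hg⟩ := exists_good hV hy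
  have h := hg.int hp
  rw [mul_limDens] at h
  exact (integrable_indicator_iff hV.closed.measurableSet).1 h

theorem integrableOn_exp (hV : PCone V) (hy : Pos V y) : IntegrableOn (fun x => Real.exp (-(x ⬝ᵥ y))) V := by
  have := integrableOn hV hy pg_one
  simpa using this

theorem integral_limDens (hV : PCone V) (y : Fin N → ℝ) (p : (Fin N → ℝ) → ℝ) :
    ∫ x, p x * limDens 0 (-y) V x = ∫ x in V, p x * Real.exp (-(x ⬝ᵥ y)) := by
  rw [mul_limDens, integral_indicator hV.closed.measurableSet]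

theorem integral_limDens_one (hV : PCone V) (y : Fin N → ℝ) : ∫ x, limDens 0 (-y) V x = Z V y := by
  have := integral_limDens hV y (fun _ => 1)
  simpa [Z] using this

theorem Z_pos (hV : PCone V) (hy : Pos V y) : 0 < Z V y := by
  obtain ⟨a, _, hg⟩ := exists_good hV hy
  rw [← integral_limDens_one hV]
  exact hg.mass_pos

theorem Z_nonneg (V : Set (Fin N → ℝ)) (y : Fin N → ℝ) : 0 ≤ Z V y :=
  integral_nonneg fun _ => (Real.exp_pos _).le

theorem smul_cone (hV : PCone V) {t : ℝ} (ht : 0 < t) : t • V = V := by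
  ext x
  rw [mem_smul_set_iff_inv_smul_mem₀ ht.ne']
  constructor
  · intro h
    have := hV.smul t ht.le _ h
    rwa [smul_inv_smul₀ ht.ne'] at this
  · intro h
    exact hV.smul _ (inv_nonneg.2 ht.le) _ h

/-- **homogeneity** -/
theorem Z_smul (hV : PCone V) (y : Fin N → ℝ) {t : ℝ} (ht : 0 < t) : Z V (t • y) = (t ^ N)⁻¹ * Z V y := by
  have h := MeasureTheory.Measure.setIntegral_comp_smul_of_pos (volume : Measure (Fin N → ℝ))
    (fun x => Real.exp (-(x ⬝ᵥ y))) V ht
  rw [smul_cone hV ht] at h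
  unfold Z
  have e : ∀ x : Fin N → ℝ, x ⬝ᵥ (t • y) = (t • x) ⬝ᵥ y := fun x => by
    rw [dotProduct_smul, smul_dotProduct]
  simp only [e]
  rw [h]
  simp

theorem pg_dot (y : Fin N → ℝ) : PolyGrowth (fun x : Fin N → ℝ => x ⬝ᵥ y) := by
  refine ⟨(Continuous.dotProduct continuous_id continuous_const).aestronglyMeasurable, N * ‖y‖, 1, fun x => ?_⟩
  have h1 := abs_dot_le x y
  rw [pow_one]
  have h2 : 0 ≤ (N : ℝ) * ‖y‖ := by positivity
  nlinarith [norm_nonneg x]

/-- first derivative along the ray: `E ⟨x,y⟩ = N` -/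
theorem EE_dot (hV : PCone V) (hy : Pos V y) : EE V y (fun x => x ⬝ᵥ y) = N := by
  have hZ := Z_pos hV hy
  have hy2 : Pos V ((1 / 2 : ℝ) • y) := pos_smul hy (by norm_num)
  -- derivative under the integral sign
  have h1 : HasDerivAt (fun t : ℝ => ∫ x in V, Real.exp (-(t * (x ⬝ᵥ y))))
      (∫ x in V, -(x ⬝ᵥ y) * Real.exp (-(1 * (x ⬝ᵥ y)))) 1 := by
    refine (hasDerivAt_integral_of_dominated_loc_of_deriv_le (μ := volume.restrict V)
      (F := fun (t : ℝ) (x : Fin N → ℝ) => Real.exp (-(t * (x ⬝ᵥ y))))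
      (F' := fun (t : ℝ) (x : Fin N → ℝ) => -(x ⬝ᵥ y) * Real.exp (-(t * (x ⬝ᵥ y))))
      (bound := fun x => |x ⬝ᵥ y| * Real.exp (-(x ⬝ᵥ ((1 / 2 : ℝ) • y))))
      (Metric.ball_mem_nhds (1 : ℝ) (half_pos one_pos)) (Eventually.of_forall fun t => ?_) ?_ ?_ ?_ ?_ ?_).2
    · refine Continuous.aestronglyMeasurable ?_
      exact Real.continuous_exp.comp ((continuous_const.mul (Continuous.dotProduct continuous_id continuous_const)).neg)
    · have h0 := integrableOn_exp hV hy
      simp only [one_mul]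
      exact h0
    · refine Continuous.aestronglyMeasurable ?_
      exact (Continuous.dotProduct continuous_id continuous_const).neg.mul
        (Real.continuous_exp.comp ((continuous_const.mul (Continuous.dotProduct continuous_id continuous_const)).neg))
    · refine (ae_restrict_mem hV.closed.measurableSet).mono fun x hx t ht => ?_
      have hp : 0 ≤ x ⬝ᵥ y := hy.mem_dual x hx
      rw [Metric.mem_ball, Real.dist_eq, abs_lt] at ht
      rw [norm_mul, norm_neg, Real.norm_eq_abs, Real.norm_eq_abs, Real.abs_exp]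
      refine mul_le_mul_of_nonneg_left (Real.exp_le_exp.2 ?_) (abs_nonneg _)
      rw [dotProduct_smul, smul_eq_mul]
      nlinarith [ht.1]
    · have h := integrableOn hV hy2 (p := fun x => |x ⬝ᵥ y|) (by
        obtain ⟨m, A, k, h⟩ := pg_dot y
        exact ⟨m.norm, A, k, fun x => by rw [abs_abs]; exact h x⟩)
      exact h
    · refine Eventually.of_forall fun x t _ => ?_
      have h2 : HasDerivAt (fun t : ℝ => -(t * (x ⬝ᵥ y))) (-(x ⬝ᵥ y)) t := by
        simpa using ((hasDerivAt_id t).mul_const (x ⬝ᵥ y)).fun_neg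
      have h3 := h2.exp
      refine h3.congr_deriv ?_
      ring
  have h2 : HasDerivAt (fun t : ℝ => (t ^ N)⁻¹ * Z V y) (-(N : ℝ) * Z V y) 1 := by
    have h3 : HasDerivAt (fun t : ℝ => (t ^ N)⁻¹) (-((N : ℝ) * 1 ^ (N - 1)) / (1 ^ N) ^ 2) 1 :=
      (hasDerivAt_pow N (1 : ℝ)).fun_inv (by simp)
    have h4 := h3.mul_const (Z V y)
    refine h4.congr_deriv ?_
    simp
  have h3 : (fun t : ℝ => ∫ x in V, Real.exp (-(t * (x ⬝ᵥ y)))) =ᶠ[𝓝 1] fun t : ℝ => (t ^ N)⁻¹ * Z V y := by
    filter_upwards [lt_mem_nhds (zero_lt_one : (0 : ℝ) < 1)] with t ht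
    rw [← Z_smul hV y ht]
    unfold Z
    simp only [dotProduct_smul, smul_eq_mul]
  have h4 := (h1.congr_of_eventuallyEq h3.symm).unique h2
  unfold EE
  rw [div_eq_iff hZ.ne']
  have h5 : ∫ x in V, -(x ⬝ᵥ y) * Real.exp (-(1 * (x ⬝ᵥ y))) = -∫ x in V, (x ⬝ᵥ y) * Real.exp (-(x ⬝ᵥ y)) := by
    rw [← integral_neg]
    refine integral_congr_ae (Eventually.of_forall fun x => ?_)
    simp
  rw [h5] at h4
  linarith

theorem covF_eq (hV : PCone V) (y : Fin N → ℝ) : covF (limDens 0 (-y) V) = Cv V y := by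
  have h1 : ∀ φ : (Fin N → ℝ) → ℝ, Ef (limDens 0 (-y) V) φ = EE V y φ := fun φ => by
    unfold Ef EE
    rw [integral_limDens hV, integral_limDens_one hV]
  ext i j
  simp only [covF, Matrix.of_apply, h1, Cv]

theorem entF_eq (hV : PCone V) (hy : Pos V y) : entF (limDens 0 (-y) V) = Real.log (Z V y) + N := by
  unfold entF
  rw [integral_limDens_one hV]
  have h1 : ∫ x, limDens 0 (-y) V x * Real.log (limDens 0 (-y) V x) =
      -∫ x in V, (x ⬝ᵥ y) * Real.exp (-(x ⬝ᵥ y)) := by
    rw [← integral_neg, ← integral_indicator hV.closed.measurableSet]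
    congr 1
    funext x
    rw [limDens_eq]
    by_cases hx : x ∈ V
    · rw [indicator_of_mem hx, indicator_of_mem hx, Real.log_exp]
      ring
    · rw [indicator_of_notMem hx, indicator_of_notMem hx, zero_mul]
  rw [h1, neg_div, sub_neg_eq_add]
  congr 1
  exact EE_dot hV hy

/-- **L1**: `(C_δ)` for every proper cone -/
theorem stmtCd : StmtCd := by
  intro δ N hN V hV y hy
  obtain ⟨a, ha, hdec⟩ := id hy
  have h := P254.X.Loss.DD_limDens_loss hN Matrix.PosSemidef.zero hV.closed hV.convex hV.int (c := -y) (b := 0) ha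
    (fun x hx => by
      have := hdec x hx
      rw [neg_dotProduct, dotProduct_comm]
      linarith)
  have hg : Good (limDens 0 (-y) V) (Real.exp 0) a :=
    good_limDens Matrix.PosSemidef.zero hV.closed hV.int ha fun x hx => by
      have := hdec x hx
      rw [neg_dotProduct, dotProduct_comm]
      linarith
  have hdet := hg.det_pos
  unfold DD at h
  rw [covF_eq hV] at h hdet
  rw [entF_eq hV hy] at h
  have hZ := Z_pos hV hy
  have h2 : Real.log (Cv V y).det ≤ Real.log (Real.exp (2 * δ * N) * Z V y ^ 2) := by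
    rw [Real.log_mul (Real.exp_pos _).ne' (by positivity), Real.log_exp, Real.log_pow]
    push_cast
    linarith
  exact (Real.log_le_log_iff hdet (by positivity)).1 h2

end Vale.Agent.P248.MC
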