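import Vale.Agent.P254.X.Loss
import Vale.Agent.P248.Defs

/-! # P248/MC: the near-sharp Mahler bound from the near-sharp entropy inequality of P254 stage 3
(helper541's note 11145). Exact interfaces (helper618).

`V` = proper closed convex cone in `Fin N → ℝ`, `Dual V` its dual, `Z V y = ∫_V exp (-⟨x,y⟩) dx`,
`Pos V y` says that `y` is in the interior of the dual cone.
The goal is `exp (-2 δ N) N ^ N ≤ Z V y * Z (Dual V) x * ⟨x,y⟩ ^ N`. -/

open MeasureTheory Set Matrix Filter Topology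

namespace Vale.Agent.P248.MC

variable {N : ℕ}

/-- proper cone (closed, convex, solid, pointed) -/
structure PCone (V : Set (Fin N → ℝ)) : Prop where
  closed : IsClosed V
  convex : Convex ℝ V
  smul : ∀ t : ℝ, 0 ≤ t → ∀ x ∈ V, t • x ∈ V
  int : (interior V).Nonempty
  ptd : ∃ y : Fin N → ℝ, ∃ a : ℝ, 0 < a ∧ ∀ x ∈ V, a * ‖x‖ ≤ x ⬝ᵥ y

/-- dual cone -/
def Dual (V : Set (Fin N → ℝ)) : Set (Fin N → ℝ) := {w | ∀ x ∈ V, 0 ≤ x ⬝ᵥ w}

/-- `y` is positive on `V \ {0}` -/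
def Pos (V : Set (Fin N → ℝ)) (y : Fin N → ℝ) : Prop := ∃ a : ℝ, 0 < a ∧ ∀ x ∈ V, a * ‖x‖ ≤ x ⬝ᵥ y

/-- characteristic function of the cone -/
noncomputable def Z (V : Set (Fin N → ℝ)) (y : Fin N → ℝ) : ℝ := ∫ x in V, Real.exp (-(x ⬝ᵥ y))

/-- expectation with respect to `1_V exp (-⟨x,y⟩) / Z` -/
noncomputable def EE (V : Set (Fin N → ℝ)) (y : Fin N → ℝ) (f : (Fin N → ℝ) → ℝ) : ℝ :=
  (∫ x in V, f x * Real.exp (-(x ⬝ᵥ y))) / Z V y

/-- covariance matrix -/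
noncomputable def Cv (V : Set (Fin N → ℝ)) (y : Fin N → ℝ) : Matrix (Fin N) (Fin N) ℝ :=
  fun i j => EE V y (fun x => x i * x j) - EE V y (fun x => x i) * EE V y (fun x => x j)

/-- `(C_δ)` for the cone `V` -/
def Cd (δ : ℝ) (V : Set (Fin N → ℝ)) : Prop :=
  ∀ y, Pos V y → (Cv V y).det ≤ Real.exp (2 * δ * N) * Z V y ^ 2

/-- L1 (owner 618): the output of P254 stage 3 in cone form -/
def StmtCd : Prop := ∀ (δ : ℝ) (N : ℕ), P254.X.Loss.NiceDDL δ N → ∀ V : Set (Fin N → ℝ), PCone V → Cd δ V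

/-- L2: second derivative of `log Z` along lines -/
def StmtVar : Prop := ∀ (N : ℕ) (V : Set (Fin N → ℝ)) (y b : Fin N → ℝ), PCone V → Pos V y →
  ∃ d : ℝ → ℝ, (∀ᶠ t in 𝓝 (0 : ℝ), HasDerivAt (fun t : ℝ => Real.log (Z V (y + t • b))) (d t) t) ∧
    HasDerivAt d (b ⬝ᵥ (Cv V y *ᵥ b)) 0

/-- L3: the matrix lemma -/
def StmtMat : Prop := ∀ (N : ℕ) (U G : Matrix (Fin N) (Fin N) ℝ) (s : ℝ), Uᵀ = U → Gᵀ = G → 0 < s →
  (∀ a b : Fin N → ℝ, 2 * (a ⬝ᵥ b) ≤ s * (b ⬝ᵥ (U *ᵥ b) + a ⬝ᵥ (G *ᵥ a))) →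
  1 ≤ s ^ (2 * N) * (U.det * G.det)

/-- L5: properness -/
def StmtProp : Prop := ∀ (N : ℕ) (V : Set (Fin N → ℝ)) (x₁ : Fin N → ℝ) (M : ℝ), PCone V → x₁ ∈ interior V →
  IsCompact {y : Fin N → ℝ | Pos V y ∧ x₁ ⬝ᵥ y = 1 ∧ Z V y ≤ M}

/-- L6: the crude bound (simplex of maximal volume in the section) -/
def StmtCrude : Prop := ∀ (N : ℕ) (V : Set (Fin N → ℝ)), 0 < N → PCone V → ∃ c : ℝ, 0 < c ∧
  ∀ x y, Pos (Dual V) x → Pos V y → c ≤ Z V y * Z (Dual V) x * (x ⬝ᵥ y) ^ N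

/-- L4: the comparison theorem (minimiser of the penalised functional, second variation) -/
def StmtCmp : Prop := ∀ (δ : ℝ) (N : ℕ) (V : Set (Fin N → ℝ)), 0 < N → PCone V → Cd δ V → Cd δ (Dual V) →
  ∀ x y, Pos (Dual V) x → Pos V y →
    Real.exp (-(2 * δ * N)) * (N : ℝ) ^ N ≤ Z V y * Z (Dual V) x * (x ⬝ᵥ y) ^ N

/-- L7: translation to bodies; `V` = cone over `K × {1}`, `x = (1, z)`, `y = (1, 0)` -/
def StmtTr : Prop := ∀ (n : ℕ) (K : Set (EuclideanSpace ℝ (Fin n))) (z : EuclideanSpace ℝ (Fin n)),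
  IsConvexBody K → z ∈ interior K → ∃ (V : Set (Fin (n + 1) → ℝ)) (x y : Fin (n + 1) → ℝ),
    PCone V ∧ Pos V y ∧ Pos (Dual V) x ∧ x ⬝ᵥ y = 1 ∧
    Z V y = (n.factorial : ℝ) * (volume K).toReal ∧
    Z (Dual V) x = (n.factorial : ℝ) * (volume (polarAt K z)).toReal

/-! ### basics (L8, 618) -/

theorem pos_smul {V : Set (Fin N → ℝ)} {y : Fin N → ℝ} (h : Pos V y) {t : ℝ} (ht : 0 < t) : Pos V (t • y) := by
  obtain ⟨a, ha, h⟩ := h
  refine ⟨t * a, by positivity, fun x hx => ?_⟩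
  rw [dotProduct_smul, smul_eq_mul, mul_assoc]
  exact mul_le_mul_of_nonneg_left (h x hx) ht.le

theorem Pos.mem_dual {V : Set (Fin N → ℝ)} {y : Fin N → ℝ} (h : Pos V y) : y ∈ Dual V := by
  obtain ⟨a, ha, h⟩ := h
  exact fun x hx => le_trans (by positivity) (h x hx)

/-- the dot product is bounded by the sum of absolute values times the sup norm -/
theorem abs_dot_le (x y : Fin N → ℝ) : |x ⬝ᵥ y| ≤ N * ‖x‖ * ‖y‖ := by
  unfold dotProduct
  refine (Finset.abs_sum_le_sum_abs _ _).trans ?_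
  have : ∀ i ∈ (Finset.univ : Finset (Fin N)), |x i * y i| ≤ ‖x‖ * ‖y‖ := fun i _ => by
    rw [abs_mul]
    exact mul_le_mul (norm_le_pi_norm x i) (norm_le_pi_norm y i) (abs_nonneg _) (norm_nonneg _)
  refine (Finset.sum_le_card_nsmul _ _ _ this).trans ?_
  simp [mul_assoc]

/-- sign vector -/
theorem exists_sign (w : Fin N → ℝ) : ∃ s : Fin N → ℝ, ‖s‖ ≤ 1 ∧ ‖w‖ ≤ s ⬝ᵥ w := by
  refine ⟨fun i => SignType.sign (w i), ?_, ?_⟩
  · refine (pi_norm_le_iff_of_nonneg zero_le_one).2 fun i => ?_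
    rcases lt_trichotomy (w i) 0 with h | h | h
    · simp [h]
    · simp [h]
    · simp [h]
  · have h1 : (fun i => ((SignType.sign (w i) : SignType) : ℝ)) ⬝ᵥ w = ∑ i, |w i| := by
      unfold dotProduct
      exact Finset.sum_congr rfl fun i _ => sign_mul_self (w i)
    rw [h1]
    refine (pi_norm_le_iff_of_nonneg (Finset.sum_nonneg fun i _ => abs_nonneg _)).2 fun i => ?_
    exact Finset.single_le_sum (f := fun i => |w i|) (fun i _ => abs_nonneg _) (Finset.mem_univ i)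

/-- interior points of `V` are positive on the dual -/
theorem pos_dual_of_interior {V : Set (Fin N → ℝ)} {x : Fin N → ℝ} (hx : x ∈ interior V) : Pos (Dual V) x := by
  obtain ⟨r, hr, hb⟩ := Metric.mem_nhds_iff.1 (mem_interior_iff_mem_nhds.1 hx)
  refine ⟨r / 2, by positivity, fun w hw => ?_⟩
  obtain ⟨s, hs, hs1⟩ := exists_sign w
  have h1 : x - (r / 2) • s ∈ V := hb (by
    rw [Metric.mem_ball, dist_eq_norm, sub_sub_cancel_left, norm_neg, norm_smul, Real.norm_eq_abs,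
      abs_of_pos (half_pos hr)]
    nlinarith [norm_nonneg s])
  have h2 := hw _ h1
  rw [sub_dotProduct, smul_dotProduct, smul_eq_mul] at h2
  rw [dotProduct_comm w x]
  nlinarith

/-- the set of positive functionals is open and lies in the dual -/
theorem Pos.eventually {V : Set (Fin N → ℝ)} {y : Fin N → ℝ} (h : Pos V y) : ∀ᶠ y' in 𝓝 y, Pos V y' := by
  obtain ⟨a, ha, h⟩ := h
  refine Metric.eventually_nhds_iff.2 ⟨a / (2 * ((N : ℝ) + 1)), by positivity, fun y' hy' => ⟨a / 2, half_pos ha,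
    fun x hx => ?_⟩⟩
  rw [dist_eq_norm] at hy'
  have h1 := abs_dot_le x (y' - y)
  have h2 := h x hx
  have h3 : (N : ℝ) * ‖x‖ * ‖y' - y‖ ≤ a / 2 * ‖x‖ := by
    have h4 : (N : ℝ) * ‖y' - y‖ ≤ a / 2 := by
      have h5 : (N : ℝ) * ‖y' - y‖ ≤ ((N : ℝ) + 1) * (a / (2 * ((N : ℝ) + 1))) :=
        mul_le_mul (by linarith) hy'.le (norm_nonneg _) (by positivity)
      have h6 : ((N : ℝ) + 1) * (a / (2 * ((N : ℝ) + 1))) = a / 2 := by field_simp
      linarith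
    calc (N : ℝ) * ‖x‖ * ‖y' - y‖ = (N : ℝ) * ‖y' - y‖ * ‖x‖ := by ring
      _ ≤ a / 2 * ‖x‖ := mul_le_mul_of_nonneg_right h4 (norm_nonneg _)
  have h7 : x ⬝ᵥ y' = x ⬝ᵥ y + x ⬝ᵥ (y' - y) := by rw [dotProduct_sub]; ring
  have h8 := neg_abs_le (x ⬝ᵥ (y' - y))
  rw [h7]
  linarith

theorem Pos.mem_interior {V : Set (Fin N → ℝ)} {y : Fin N → ℝ} (h : Pos V y) : y ∈ interior (Dual V) :=
  mem_interior_iff_mem_nhds.2 (h.eventually.mono fun _ h' => h'.mem_dual)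

theorem isOpen_pos (V : Set (Fin N → ℝ)) : IsOpen {y | Pos V y} :=
  isOpen_iff_mem_nhds.2 fun _ h => Pos.eventually h

/-- the dual of a proper cone is a proper cone -/
theorem PCone.dual {V : Set (Fin N → ℝ)} (h : PCone V) : PCone (Dual V) where
  closed := by
    have : Dual V = ⋂ x ∈ V, {w | 0 ≤ x ⬝ᵥ w} := by ext w; simp [Dual]
    rw [this]
    exact isClosed_biInter fun x _ => isClosed_le continuous_const (Continuous.dotProduct continuous_const continuous_id)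
  convex := fun w hw w' hw' s t hs ht _ x hx => by
    rw [dotProduct_add, dotProduct_smul, dotProduct_smul, smul_eq_mul, smul_eq_mul]
    have h1 := hw x hx
    have h2 := hw' x hx
    positivity
  smul := fun t ht w hw x hx => by
    rw [dotProduct_smul, smul_eq_mul]
    exact mul_nonneg ht (hw x hx)
  int := by
    obtain ⟨y, a, ha, hy⟩ := h.ptd
    exact ⟨y, Pos.mem_interior ⟨a, ha, hy⟩⟩
  ptd := by
    obtain ⟨x, hx⟩ := h.int
    obtain ⟨a, ha, h1⟩ := pos_dual_of_interior hx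
    exact ⟨x, a, ha, h1⟩

/-- for a pair of positive points, the pairing is positive (`0 < N` is needed) -/
theorem dot_pos {V : Set (Fin N → ℝ)} (hN : 0 < N) (hV : PCone V) {x y : Fin N → ℝ} (hx : Pos (Dual V) x)
    (hy : Pos V y) : 0 < x ⬝ᵥ y := by
  obtain ⟨a, ha, h1⟩ := hx
  have h2 := h1 y hy.mem_dual
  have h3 : y ≠ 0 := by
    rintro rfl
    obtain ⟨b, hb, h4⟩ := hy
    obtain ⟨x₀, hx₀⟩ := hV.int
    obtain ⟨r, hr, hball⟩ := Metric.mem_nhds_iff.1 (mem_interior_iff_mem_nhds.1 hx₀)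
    have h5 : ∀ x ∈ V, x = 0 := fun x hx => by
      have := h4 x hx
      rw [dotProduct_zero] at this
      exact norm_eq_zero.1 (le_antisymm (by nlinarith [norm_nonneg x]) (norm_nonneg x))
    have h6 := h5 x₀ (interior_subset hx₀)
    have h7 : (fun _ => r / 2 : Fin N → ℝ) ∈ V := hball (by
      rw [h6, mem_ball_zero_iff]
      refine lt_of_le_of_lt ((pi_norm_le_iff_of_nonneg (half_pos hr).le).2 fun i => ?_) (half_lt_self hr)
      rw [Real.norm_eq_abs, abs_of_pos (half_pos hr)])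
    have h8 := congrFun (h5 _ h7) ⟨0, hN⟩
    simp at h8
    linarith
  rw [dotProduct_comm] at h2
  exact lt_of_lt_of_le (mul_pos ha (norm_pos_iff.2 h3)) h2

/-- **the final theorem modulo the leaves** -/
theorem volumeProduct_ge_of {δ : ℝ} {n : ℕ} (hN : P254.X.Loss.NiceDDL δ (n + 1)) (h1 : StmtCd) (h2 : StmtCmp)
    (h3 : StmtTr) (K : Set (EuclideanSpace ℝ (Fin n))) (hK : IsConvexBody K) :
    ENNReal.ofReal (Real.exp (-(2 * δ * ((n : ℝ) + 1))) * (((n : ℝ) + 1) ^ (n + 1) / (n.factorial : ℝ) ^ 2)) ≤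
      volumeProduct K := by
  unfold volumeProduct
  refine le_iInf₂ fun z hz => ?_
  obtain ⟨V, x, y, hV, hy, hx, hxy, hZ, hZ'⟩ := h3 n K z hK hz
  have h4 := h2 δ (n + 1) V (Nat.succ_pos n) hV (h1 δ _ hN V hV) (h1 δ _ hN _ hV.dual) x y hx hy
  rw [hxy, one_pow, mul_one, hZ, hZ'] at h4
  push_cast at h4
  have hf : (0 : ℝ) < (n.factorial : ℝ) := by positivity
  have h5 : Real.exp (-(2 * δ * ((n : ℝ) + 1))) * (((n : ℝ) + 1) ^ (n + 1) / (n.factorial : ℝ) ^ 2) ≤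
      (volume K).toReal * (volume (polarAt K z)).toReal := by
    rw [← mul_div_assoc, div_le_iff₀ (by positivity)]
    calc _ ≤ _ := h4
      _ = _ := by ring
  refine (ENNReal.ofReal_le_ofReal h5).trans ?_
  rw [ENNReal.ofReal_mul ENNReal.toReal_nonneg]
  exact mul_le_mul' ENNReal.ofReal_toReal_le ENNReal.ofReal_toReal_le

end Vale.Agent.P248.MC
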