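import Vale.Agent.P254.R304.Func

/-! # P248/MC: derivatives of `u(y) = log ∫_V e^{-⟨y,x⟩} dx` along lines (helper700). -/

open MeasureTheory Set Matrix Filter Topology Metric

namespace Vale.Agent.P248.MC.SD700

open Vale.Agent.P254.R304

variable {n : ℕ}

/-- moments of `e^{-⟨y,x⟩}` on `V` -/
noncomputable def J (V : Set (Fin n → ℝ)) (φ : (Fin n → ℝ) → ℝ) (y : Fin n → ℝ) : ℝ :=
  ∫ x in V, φ x * Real.exp (-(y ⬝ᵥ x))

/-- the density `1_V e^{-⟨y,x⟩}` -/
noncomputable def den (V : Set (Fin n → ℝ)) (y : Fin n → ℝ) : (Fin n → ℝ) → ℝ :=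
  V.indicator fun x => Real.exp (-(y ⬝ᵥ x))

theorem int_den {V : Set (Fin n → ℝ)} (hV : MeasurableSet V) (φ : (Fin n → ℝ) → ℝ) (y : Fin n → ℝ) :
    ∫ x, φ x * den V y x = J V φ y := by
  unfold J den
  rw [← integral_indicator hV]
  refine integral_congr_ae (Eventually.of_forall fun x => ?_)
  by_cases hx : x ∈ V
  · simp [hx]
  · simp [hx]

theorem int_den1 {V : Set (Fin n → ℝ)} (hV : MeasurableSet V) (y : Fin n → ℝ) :
    ∫ x, den V y x = J V (fun _ => 1) y := by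
  rw [← int_den hV]
  simp

theorem dot_le (y x : Fin n → ℝ) : |y ⬝ᵥ x| ≤ n * ‖y‖ * ‖x‖ := abs_dot_le' y x

theorem pg_dot (b : Fin n → ℝ) : PolyGrowth (fun x : Fin n → ℝ => b ⬝ᵥ x) := by
  refine ⟨?_, n * ‖b‖, 1, fun x => ?_⟩
  · refine Continuous.aestronglyMeasurable ?_
    simp only [dotProduct]
    fun_prop
  · refine (dot_le b x).trans ?_
    rw [pow_one]
    have : 0 ≤ (n : ℝ) * ‖b‖ := by positivity
    nlinarith [norm_nonneg x]

/-- decay on `V` along the line -/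
theorem dec_line {V : Set (Fin n → ℝ)} {y0 b : Fin n → ℝ} {a : ℝ} (hdec : ∀ x ∈ V, a * ‖x‖ ≤ y0 ⬝ᵥ x)
    (t : ℝ) {x : Fin n → ℝ} (hx : x ∈ V) : (a - |t| * (n * ‖b‖)) * ‖x‖ ≤ (y0 + t • b) ⬝ᵥ x := by
  rw [add_dotProduct, smul_dotProduct, smul_eq_mul]
  have h1 := hdec x hx
  have h2 : |t * (b ⬝ᵥ x)| ≤ |t| * (n * ‖b‖ * ‖x‖) := by
    rw [abs_mul]
    exact mul_le_mul_of_nonneg_left (dot_le b x) (abs_nonneg t)
  have h3 := (abs_le.1 h2).1
  nlinarith

theorem exp_bound {V : Set (Fin n → ℝ)} {y : Fin n → ℝ} {s : ℝ} (h : ∀ x ∈ V, s * ‖x‖ ≤ y ⬝ᵥ x)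
    {x : Fin n → ℝ} (hx : x ∈ V) : Real.exp (-(y ⬝ᵥ x)) ≤ Real.exp (-(s * ‖x‖)) :=
  Real.exp_le_exp.2 (neg_le_neg (h x hx))

theorem meas_exp (y : Fin n → ℝ) : Continuous fun x : Fin n → ℝ => Real.exp (-(y ⬝ᵥ x)) := by
  simp only [dotProduct]
  fun_prop

theorem pg_integrable {s : ℝ} (hs : 0 < s) {φ : (Fin n → ℝ) → ℝ} (hφ : PolyGrowth φ) :
    Integrable fun x : Fin n → ℝ => |φ x| * Real.exp (-(s * ‖x‖)) := by
  obtain ⟨hm, A, N, hA⟩ := hφ
  refine ((integrable_poly_exp n hs N).const_mul A).mono' ?_ (Eventually.of_forall fun x => ?_)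
  · refine (by simpa only [Real.norm_eq_abs] using hm.norm : AEStronglyMeasurable (fun x => |φ x|) volume).mul ?_
    exact (by fun_prop : Continuous fun x : Fin n → ℝ => Real.exp (-(s * ‖x‖))).aestronglyMeasurable
  · rw [Real.norm_eq_abs, abs_of_nonneg (by positivity), ← mul_assoc]
    exact mul_le_mul_of_nonneg_right (hA x) (Real.exp_pos _).le

theorem integrable_J {V : Set (Fin n → ℝ)} (hV : MeasurableSet V) {y : Fin n → ℝ} {s : ℝ} (hs : 0 < s)
    (h : ∀ x ∈ V, s * ‖x‖ ≤ y ⬝ᵥ x) {φ : (Fin n → ℝ) → ℝ} (hφ : PolyGrowth φ) :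
    IntegrableOn (fun x => φ x * Real.exp (-(y ⬝ᵥ x))) V := by
  refine ((pg_integrable hs hφ).integrableOn (s := V)).mono'
    ((hφ.1.mul (meas_exp y).aestronglyMeasurable).restrict) ?_
  refine (ae_restrict_iff' hV).2 (Eventually.of_forall fun x hx => ?_)
  rw [norm_mul, Real.norm_eq_abs, Real.norm_eq_abs, Real.abs_exp]
  exact mul_le_mul_of_nonneg_left (exp_bound h hx) (abs_nonneg _)

/-- derivative of a moment along a line -/
theorem J_der {V : Set (Fin n → ℝ)} (hV : MeasurableSet V) {y0 b : Fin n → ℝ} {a : ℝ}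
    (hdec : ∀ x ∈ V, a * ‖x‖ ≤ y0 ⬝ᵥ x) {φ : (Fin n → ℝ) → ℝ} (hφ : PolyGrowth φ) {t : ℝ}
    (ht : |t| * (n * ‖b‖) < a) :
    HasDerivAt (fun t : ℝ => J V φ (y0 + t • b)) (-J V (fun x => φ x * (b ⬝ᵥ x)) (y0 + t • b)) t := by
  set s : ℝ := (a - |t| * (n * ‖b‖)) / 2 with hs
  have hs0 : 0 < s := by rw [hs]; linarith
  set ε : ℝ := s / (n * ‖b‖ + 1) with hε
  have hnb : 0 ≤ (n : ℝ) * ‖b‖ := by positivity
  have hε0 : 0 < ε := by rw [hε]; positivity
  have hball : ∀ r ∈ ball t ε, ∀ x ∈ V, s * ‖x‖ ≤ (y0 + r • b) ⬝ᵥ x := by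
    intro r hr x hx
    refine le_trans ?_ (dec_line hdec r hx)
    refine mul_le_mul_of_nonneg_right ?_ (norm_nonneg x)
    rw [mem_ball, Real.dist_eq] at hr
    have h1 : |r| ≤ |t| + ε := by
      have := abs_sub_abs_le_abs_sub r t
      linarith
    have h2 : ε * (n * ‖b‖) ≤ s := by
      rw [hε, div_mul_eq_mul_div, div_le_iff₀ (by positivity)]
      nlinarith
    have h3 : |r| * (n * ‖b‖) ≤ (|t| + ε) * (n * ‖b‖) := mul_le_mul_of_nonneg_right h1 hnb
    have h4 : 2 * s = a - |t| * (n * ‖b‖) := by rw [hs]; ring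
    nlinarith
  have hφb : PolyGrowth (fun x => φ x * (b ⬝ᵥ x)) := hφ.mul (pg_dot b)
  have key := hasDerivAt_integral_of_dominated_loc_of_deriv_le (μ := volume.restrict V)
    (F := fun (r : ℝ) x => φ x * Real.exp (-((y0 + r • b) ⬝ᵥ x)))
    (F' := fun (r : ℝ) x => -(φ x * (b ⬝ᵥ x) * Real.exp (-((y0 + r • b) ⬝ᵥ x))))
    (x₀ := t) (s := ball t ε) (bound := fun x => |φ x * (b ⬝ᵥ x)| * Real.exp (-(s * ‖x‖)))
    (ball_mem_nhds t hε0)
    (Eventually.of_forall fun r => (hφ.1.mul (meas_exp _).aestronglyMeasurable).restrict)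
    (integrable_J hV hs0 (hball t (mem_ball_self hε0)) hφ)
    ((hφb.1.mul (meas_exp _).aestronglyMeasurable).neg.restrict)
    ((ae_restrict_iff' hV).2 (Eventually.of_forall fun x hx r hr => by
      rw [norm_neg, norm_mul, Real.norm_eq_abs, Real.norm_eq_abs, Real.abs_exp]
      exact mul_le_mul_of_nonneg_left (exp_bound (hball r hr) hx) (abs_nonneg _)))
    ((pg_integrable hs0 hφb).restrict)
    (Eventually.of_forall fun x r _ => by
      have e1 : ∀ r : ℝ, -((y0 + r • b) ⬝ᵥ x) = -(y0 ⬝ᵥ x) - r * (b ⬝ᵥ x) := fun r => by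
        rw [add_dotProduct, smul_dotProduct, smul_eq_mul]; ring
      have h1 : HasDerivAt (fun r : ℝ => -((y0 + r • b) ⬝ᵥ x)) (-(b ⬝ᵥ x)) r := by
        simp only [e1]
        have := ((hasDerivAt_id r).mul_const (b ⬝ᵥ x)).const_sub (-(y0 ⬝ᵥ x))
        simpa using this
      have h2 := (h1.exp).const_mul (φ x)
      refine h2.congr_deriv ?_
      ring)
  have h := key.2
  unfold J
  refine h.congr_deriv ?_
  rw [integral_neg]

theorem J_pos {V : Set (Fin n → ℝ)} (hV : MeasurableSet V) (hi : (interior V).Nonempty) {y : Fin n → ℝ}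
    {s : ℝ} (hs : 0 < s) (h : ∀ x ∈ V, s * ‖x‖ ≤ y ⬝ᵥ x) : 0 < J V (fun _ => 1) y := by
  unfold J
  have hint := integrable_J hV hs h (φ := fun _ => 1) pg_one
  have hvol : 0 < volume V :=
    (isOpen_interior.measure_pos volume hi).trans_le (measure_mono interior_subset)
  rw [setIntegral_pos_iff_support_of_nonneg_ae (Eventually.of_forall fun x => by positivity) hint]
  have hsupp : Function.support (fun x : Fin n → ℝ => (1 : ℝ) * Real.exp (-(y ⬝ᵥ x))) = univ := by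
    ext x
    simp [Function.mem_support, Real.exp_ne_zero]
  rw [hsupp, univ_inter]
  exact hvol

/-- `⟨b, Cov b⟩ = E⟨b,x⟩² - (E⟨b,x⟩)²` -/
theorem quad_cov {V : Set (Fin n → ℝ)} (hV : MeasurableSet V) {y : Fin n → ℝ} {s : ℝ} (hs : 0 < s)
    (h : ∀ x ∈ V, s * ‖x‖ ≤ y ⬝ᵥ x) (b : Fin n → ℝ) :
    b ⬝ᵥ covF (den V y) *ᵥ b = J V (fun x => 1 * (b ⬝ᵥ x) * (b ⬝ᵥ x)) y / J V (fun _ => 1) y
      - (J V (fun x => 1 * (b ⬝ᵥ x)) y / J V (fun _ => 1) y) ^ 2 := by
  have e1 : J V (fun x => 1 * (b ⬝ᵥ x)) y = ∑ i, b i * J V (fun x => x i) y := by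
    unfold J
    have : ∀ x : Fin n → ℝ, 1 * (b ⬝ᵥ x) * Real.exp (-(y ⬝ᵥ x)) = ∑ i, b i * (x i * Real.exp (-(y ⬝ᵥ x))) := by
      intro x
      rw [one_mul, dotProduct, Finset.sum_mul]
      exact Finset.sum_congr rfl fun i _ => by ring
    simp only [this]
    rw [integral_finsetSum _ fun i _ => (integrable_J hV hs h (pg_coord i)).const_mul _]
    exact Finset.sum_congr rfl fun i _ => integral_const_mul _ _
  have e2 : J V (fun x => 1 * (b ⬝ᵥ x) * (b ⬝ᵥ x)) y = ∑ i, ∑ j, b i * b j * J V (fun x => x i * x j) y := by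
    unfold J
    have : ∀ x : Fin n → ℝ, 1 * (b ⬝ᵥ x) * (b ⬝ᵥ x) * Real.exp (-(y ⬝ᵥ x)) =
        ∑ i, ∑ j, b i * b j * (x i * x j * Real.exp (-(y ⬝ᵥ x))) := by
      intro x
      rw [one_mul, dotProduct, Finset.sum_mul_sum, Finset.sum_mul]
      refine Finset.sum_congr rfl fun i _ => ?_
      rw [Finset.sum_mul]
      exact Finset.sum_congr rfl fun j _ => by ring
    simp only [this]
    rw [integral_finsetSum _ fun i _ => integrable_finsetSum _ fun j _ =>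
      (integrable_J hV hs h (pg_coord2 i j)).const_mul _]
    refine Finset.sum_congr rfl fun i _ => ?_
    rw [integral_finsetSum _ fun j _ => (integrable_J hV hs h (pg_coord2 i j)).const_mul _]
    exact Finset.sum_congr rfl fun j _ => integral_const_mul _ _
  rw [e1, e2]
  have e3 : b ⬝ᵥ covF (den V y) *ᵥ b = ∑ i, ∑ j, b i * b j *
      (J V (fun x => x i * x j) y / J V (fun _ => 1) y -
        J V (fun x => x i) y / J V (fun _ => 1) y * (J V (fun x => x j) y / J V (fun _ => 1) y)) := by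
    simp only [dotProduct, mulVec, covF, of_apply, Ef, Finset.mul_sum]
    refine Finset.sum_congr rfl fun i _ => Finset.sum_congr rfl fun j _ => ?_
    rw [int_den hV (fun x => x i * x j), int_den hV (fun x => x i), int_den hV (fun x => x j), int_den1 hV]
    ring
  rw [e3]
  set Z := J V (fun _ => 1) y
  have e4 : (∑ i, b i * J V (fun x => x i) y) / Z = ∑ i, b i * (J V (fun x => x i) y / Z) := by
    rw [Finset.sum_div]
    exact Finset.sum_congr rfl fun i _ => by ring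
  rw [e4, pow_two, Finset.sum_mul_sum, Finset.sum_div, ← Finset.sum_sub_distrib]
  refine Finset.sum_congr rfl fun i _ => ?_
  rw [Finset.sum_div, ← Finset.sum_sub_distrib]
  exact Finset.sum_congr rfl fun j _ => by ring

/-- the first derivative of `t ↦ log ∫_V e^{-⟨y0 + t b, x⟩}` -/
theorem log_der {V : Set (Fin n → ℝ)} (hV : MeasurableSet V) (hi : (interior V).Nonempty)
    {y0 b : Fin n → ℝ} {a : ℝ} (hdec : ∀ x ∈ V, a * ‖x‖ ≤ y0 ⬝ᵥ x) {t : ℝ} (ht : |t| * (n * ‖b‖) < a) :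
    HasDerivAt (fun t : ℝ => Real.log (∫ x in V, Real.exp (-((y0 + t • b) ⬝ᵥ x))))
      (-(J V (fun x => 1 * (b ⬝ᵥ x)) (y0 + t • b) / J V (fun _ => 1) (y0 + t • b))) t := by
  have hs : 0 < a - |t| * (n * ‖b‖) := by linarith
  have hpos := J_pos hV hi hs (fun x hx => dec_line hdec t hx)
  have h1 := (J_der hV hdec (b := b) (φ := fun _ => 1) pg_one ht).log hpos.ne'
  have e : (fun t : ℝ => Real.log (∫ x in V, Real.exp (-((y0 + t • b) ⬝ᵥ x)))) =
      fun t : ℝ => Real.log (J V (fun _ => 1) (y0 + t • b)) := by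
    funext t
    unfold J
    simp
  rw [e]
  refine h1.congr_deriv ?_
  rw [neg_div]

/-- the second derivative -/
theorem log_der2 {V : Set (Fin n → ℝ)} (hV : MeasurableSet V) (hi : (interior V).Nonempty)
    {y0 b : Fin n → ℝ} {a : ℝ} (hdec : ∀ x ∈ V, a * ‖x‖ ≤ y0 ⬝ᵥ x) {t : ℝ} (ht : |t| * (n * ‖b‖) < a) :
    HasDerivAt (fun t : ℝ => -(J V (fun x => 1 * (b ⬝ᵥ x)) (y0 + t • b) / J V (fun _ => 1) (y0 + t • b)))
      (b ⬝ᵥ covF (den V (y0 + t • b)) *ᵥ b) t := by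
  have hs : 0 < a - |t| * (n * ‖b‖) := by linarith
  have hpos := J_pos hV hi hs (fun x hx => dec_line hdec t hx)
  have h1 := J_der hV hdec (b := b) (φ := fun _ => 1) pg_one ht
  have h2 := J_der hV hdec (b := b) (φ := fun x => 1 * (b ⬝ᵥ x)) (pg_one.mul (pg_dot b)) ht
  have h3 := (h2.div h1 hpos.ne').neg
  refine h3.congr_deriv ?_
  rw [quad_cov hV hs (fun x hx => dec_line hdec t hx) b]
  have hne := hpos.ne'
  field_simp
  ring

/-- moments are continuous along the line -/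
theorem J_cont {V : Set (Fin n → ℝ)} (hV : MeasurableSet V) {y0 b : Fin n → ℝ} {a : ℝ} (ha : 0 < a)
    (hdec : ∀ x ∈ V, a * ‖x‖ ≤ y0 ⬝ᵥ x) {φ : (Fin n → ℝ) → ℝ} (hφ : PolyGrowth φ) :
    ContinuousAt (fun t : ℝ => J V φ (y0 + t • b)) 0 :=
  (J_der hV hdec hφ (t := 0) (by simpa using ha)).continuousAt

/-- the second derivative is continuous at `t = 0` -/
theorem cov_cont {V : Set (Fin n → ℝ)} (hV : MeasurableSet V) (hi : (interior V).Nonempty)
    {y0 b : Fin n → ℝ} {a : ℝ} (ha : 0 < a) (hdec : ∀ x ∈ V, a * ‖x‖ ≤ y0 ⬝ᵥ x) (c : Fin n → ℝ) :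
    ContinuousAt (fun t : ℝ => c ⬝ᵥ covF (den V (y0 + t • b)) *ᵥ c) 0 := by
  have hpos := J_pos hV hi ha hdec
  have hne : J V (fun _ => 1) (y0 + (0 : ℝ) • b) ≠ 0 := by
    rw [zero_smul, add_zero]; exact hpos.ne'
  have h1 := J_cont hV (b := b) ha hdec pg_one
  have hent : ∀ i j, ContinuousAt (fun t : ℝ => covF (den V (y0 + t • b)) i j) 0 := by
    intro i j
    simp only [covF, of_apply, Ef]
    simp only [int_den hV (fun x => x i * x j), int_den hV (fun x => x i), int_den hV (fun x => x j), int_den1 hV]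
    exact ((J_cont hV (b := b) ha hdec (pg_coord2 i j)).div h1 hne).sub
      (((J_cont hV (b := b) ha hdec (pg_coord i)).div h1 hne).mul
        ((J_cont hV (b := b) ha hdec (pg_coord j)).div h1 hne))
  simp only [dotProduct, mulVec]
  refine tendsto_finsetSum _ fun i _ => Tendsto.mul tendsto_const_nhds ?_
  exact tendsto_finsetSum _ fun j _ => Tendsto.mul (hent i j) tendsto_const_nhds

end Vale.Agent.P248.MC.SD700
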