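import Mathlib
import Vale.Agent.P248.Defs

/-!
P248, near-sharp bound for all convex bodies (helper248): the passage from the product of the volumes
of a convex body with `0` in its interior and of its dual body to the volume product.
-/

open MeasureTheory Set
open scoped Pointwise

namespace Vale.Agent.P248.MC.Trans

variable {n : ℕ}

/-- the dual body `{q | 1 + ⟨q, k⟩ ≥ 0 for all k ∈ K}` (`= -K°`) -/
def dualB (K : Set (Fin n → ℝ)) : Set (Fin n → ℝ) := {q | ∀ k ∈ K, 0 ≤ 1 + q ⬝ᵥ k}

/-- `|K| |K°| ≥ D` for all convex bodies with `0` in the interior -/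
def BodyD (n : ℕ) (D : ℝ) : Prop :=
  ∀ K : Set (Fin n → ℝ), IsCompact K → Convex ℝ K → (0 : Fin n → ℝ) ∈ interior K →
    D ≤ (volume K).toReal * (volume (dualB K)).toReal

/-- the shifted copy of `K` in `Fin n → ℝ` -/
def sh (K : Set (EuclideanSpace ℝ (Fin n))) (z : EuclideanSpace ℝ (Fin n)) : Set (Fin n → ℝ) :=
  {k | WithLp.toLp 2 k + z ∈ K}

lemma volume_sh (K : Set (EuclideanSpace ℝ (Fin n))) (hK : MeasurableSet K)
    (z : EuclideanSpace ℝ (Fin n)) : volume (sh K z) = volume K := by
  have h1 : sh K z = (WithLp.toLp 2 : (Fin n → ℝ) → EuclideanSpace ℝ (Fin n)) ⁻¹'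
      ((fun x => x + z) ⁻¹' K) := rfl
  rw [h1, (PiLp.volume_preserving_toLp (Fin n)).measure_preimage
    ((hK.preimage (measurable_add_const z)).nullMeasurableSet), measure_preimage_add_right]

lemma sh_eq (K : Set (EuclideanSpace ℝ (Fin n))) (z : EuclideanSpace ℝ (Fin n)) :
    sh K z = (fun x : EuclideanSpace ℝ (Fin n) => WithLp.ofLp (x - z)) '' K := by
  ext k
  constructor
  · intro hk
    exact ⟨_, hk, by simp⟩
  · rintro ⟨x, hx, rfl⟩
    change WithLp.toLp 2 (WithLp.ofLp (x - z)) + z ∈ K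
    simpa using hx

lemma isCompact_sh {K : Set (EuclideanSpace ℝ (Fin n))} (hK : IsCompact K)
    (z : EuclideanSpace ℝ (Fin n)) : IsCompact (sh K z) := by
  rw [sh_eq]
  refine hK.image ?_
  exact (PiLp.continuous_ofLp 2 _).comp (continuous_id.sub continuous_const)

lemma convex_sh {K : Set (EuclideanSpace ℝ (Fin n))} (hK : Convex ℝ K)
    (z : EuclideanSpace ℝ (Fin n)) : Convex ℝ (sh K z) := by
  intro a ha b hb s t hs ht hst
  have h := hK ha hb hs ht hst
  change WithLp.toLp 2 (s • a + t • b) + z ∈ K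
  have e : WithLp.toLp 2 (s • a + t • b) + z =
      s • (WithLp.toLp 2 a + z) + t • (WithLp.toLp 2 b + z) := by
    rw [WithLp.toLp_add, WithLp.toLp_smul, WithLp.toLp_smul, smul_add, smul_add]
    have : z = s • z + t • z := by rw [← add_smul, hst, one_smul]
    nth_rewrite 1 [this]
    abel
  rw [e]
  exact h

lemma zero_mem_interior_sh {K : Set (EuclideanSpace ℝ (Fin n))} {z : EuclideanSpace ℝ (Fin n)}
    (hz : z ∈ interior K) : (0 : Fin n → ℝ) ∈ interior (sh K z) := by
  have hc : Continuous fun k : Fin n → ℝ => (WithLp.toLp 2 k + z : EuclideanSpace ℝ (Fin n)) :=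
    (PiLp.continuous_toLp 2 _).add continuous_const
  refine mem_interior.2 ⟨(fun k : Fin n → ℝ => (WithLp.toLp 2 k + z : EuclideanSpace ℝ (Fin n))) ⁻¹'
    interior K, fun k hk => show WithLp.toLp 2 k + z ∈ K from
      interior_subset (show WithLp.toLp 2 k + z ∈ interior K from hk),
    isOpen_interior.preimage hc, ?_⟩
  simpa using hz

lemma isClosed_polarAt (K : Set (EuclideanSpace ℝ (Fin n))) (z : EuclideanSpace ℝ (Fin n)) :
    IsClosed (polarAt K z) := by
  have : polarAt K z = ⋂ x ∈ K, {y | inner ℝ y (x - z) ≤ 1} := by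
    ext y
    simp [polarAt]
  rw [this]
  refine isClosed_biInter fun x _ => ?_
  exact isClosed_le (continuous_id.inner continuous_const) continuous_const

lemma volume_dualB_sh (K : Set (EuclideanSpace ℝ (Fin n))) (z : EuclideanSpace ℝ (Fin n)) :
    volume (dualB (sh K z)) = volume (polarAt K z) := by
  have h1 : dualB (sh K z) = (WithLp.toLp 2 : (Fin n → ℝ) → EuclideanSpace ℝ (Fin n)) ⁻¹'
      ((fun y => -y) ⁻¹' polarAt K z) := by
    ext q
    constructor
    · intro hq x hx
      have := hq (WithLp.ofLp (x - z)) (by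
        change WithLp.toLp 2 (WithLp.ofLp (x - z)) + z ∈ K
        simpa using hx)
      rw [inner_neg_left, EuclideanSpace.inner_eq_star_dotProduct]
      simp only [star_trivial]
      rw [dotProduct_comm]
      linarith
    · intro hq k hk
      have := hq _ hk
      rw [inner_neg_left, EuclideanSpace.inner_eq_star_dotProduct] at this
      simp only [star_trivial, add_sub_cancel_right] at this
      rw [dotProduct_comm] at this
      linarith
  rw [h1, (PiLp.volume_preserving_toLp (Fin n)).measure_preimage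
    (((isClosed_polarAt K z).measurableSet.preimage measurable_neg).nullMeasurableSet),
    Measure.measure_preimage_neg]

/-- **from bodies with `0` in the interior to the volume product** -/
theorem volumeProduct_ge {D : ℝ} (h : BodyD n D) {K : Set (EuclideanSpace ℝ (Fin n))}
    (hK : IsConvexBody K) : ENNReal.ofReal D ≤ volumeProduct K := by
  unfold volumeProduct
  refine le_iInf₂ fun z hz => ?_
  have h1 := h (sh K z) (isCompact_sh hK.1 z) (convex_sh hK.2.1 z) (zero_mem_interior_sh hz)
  calc ENNReal.ofReal D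
      ≤ ENNReal.ofReal ((volume (sh K z)).toReal * (volume (dualB (sh K z))).toReal) :=
        ENNReal.ofReal_le_ofReal h1
    _ = ENNReal.ofReal (volume (sh K z)).toReal * ENNReal.ofReal (volume (dualB (sh K z))).toReal :=
        ENNReal.ofReal_mul ENNReal.toReal_nonneg
    _ ≤ volume (sh K z) * volume (dualB (sh K z)) :=
        mul_le_mul' ENNReal.ofReal_toReal_le ENNReal.ofReal_toReal_le
    _ = volume K * volume (polarAt K z) := by
        rw [volume_sh K hK.1.measurableSet z, volume_dualB_sh]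

/-! ### the dual body -/

lemma isClosed_dualB (K : Set (Fin n → ℝ)) : IsClosed (dualB K) := by
  have : dualB K = ⋂ k ∈ K, {q | 0 ≤ 1 + q ⬝ᵥ k} := by
    ext q
    simp [dualB]
  rw [this]
  refine isClosed_biInter fun k _ => ?_
  refine isClosed_le continuous_const (continuous_const.add ?_)
  unfold dotProduct
  fun_prop

lemma convex_dualB (K : Set (Fin n → ℝ)) : Convex ℝ (dualB K) := by
  intro a ha b hb s t hs ht hst k hk
  have h1 := ha k hk
  have h2 := hb k hk
  rw [add_dotProduct, smul_dotProduct, smul_dotProduct, smul_eq_mul, smul_eq_mul]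
  nlinarith

lemma abs_dot_le (q k : Fin n → ℝ) : |q ⬝ᵥ k| ≤ n * ‖q‖ * ‖k‖ := by
  unfold dotProduct
  calc |∑ i, q i * k i| ≤ ∑ i, |q i * k i| := Finset.abs_sum_le_sum_abs _ _
    _ ≤ ∑ _i : Fin n, ‖q‖ * ‖k‖ := Finset.sum_le_sum fun i _ => by
        rw [abs_mul]
        exact mul_le_mul (norm_le_pi_norm q i) (norm_le_pi_norm k i) (abs_nonneg _) (norm_nonneg _)
    _ = n * ‖q‖ * ‖k‖ := by simp; ring

lemma zero_mem_interior_dualB {K : Set (Fin n → ℝ)} (hK : IsCompact K) :
    (0 : Fin n → ℝ) ∈ interior (dualB K) := by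
  obtain ⟨R, hR0, hR⟩ := hK.isBounded.exists_pos_norm_le
  refine mem_interior.2 ⟨Metric.ball 0 (1 / ((n + 1) * R)), fun q hq k hk => ?_,
    Metric.isOpen_ball, Metric.mem_ball_self (by positivity)⟩
  have h1 := abs_dot_le q k
  have h2 : ‖q‖ < 1 / ((n + 1) * R) := by simpa using hq
  have h3 := hR k hk
  have h4 : (n : ℝ) * ‖q‖ * ‖k‖ ≤ 1 := by
    have h5 : ‖q‖ * ((n + 1) * R) < 1 := by
      rwa [lt_div_iff₀ (by positivity)] at h2
    have h6 : (n : ℝ) * ‖q‖ * ‖k‖ ≤ (n : ℝ) * ‖q‖ * R := by gcongr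
    have h7 : (n : ℝ) * ‖q‖ * R ≤ ‖q‖ * ((n + 1) * R) := by
      have := mul_nonneg (norm_nonneg q) hR0.le
      nlinarith
    linarith
  have h5 := (abs_le.1 h1).1
  linarith

lemma isCompact_dualB {K : Set (Fin n → ℝ)} (h0 : (0 : Fin n → ℝ) ∈ interior K) :
    IsCompact (dualB K) := by
  refine Metric.isCompact_of_isClosed_isBounded (isClosed_dualB K) ?_
  obtain ⟨r, hr, hrK⟩ := Metric.isOpen_iff.1 isOpen_interior 0 h0
  rw [isBounded_iff_forall_norm_le]
  refine ⟨2 / r, fun q hq => ?_⟩
  rw [pi_norm_le_iff_of_nonneg (by positivity)]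
  intro i
  have hmem : ∀ s : ℝ, |s| < r → (Pi.single i s : Fin n → ℝ) ∈ K := fun s hs =>
    interior_subset (hrK (by
      rw [mem_ball_zero_iff, pi_norm_lt_iff hr]
      intro j
      by_cases hj : j = i
      · subst hj
        simpa using hs
      · simp [hj, hr]))
  have h1 := hq _ (hmem (r / 2) (by rw [abs_of_pos (by positivity)]; linarith))
  have h2 := hq _ (hmem (-(r / 2)) (by rw [abs_neg, abs_of_pos (by positivity)]; linarith))
  rw [dotProduct_single] at h1 h2
  rw [Real.norm_eq_abs, abs_le]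
  constructor
  · have e : -(2 / r) = (-2) / r := by ring
    rw [e, div_le_iff₀ hr]
    nlinarith
  · rw [le_div_iff₀ hr]
    nlinarith

lemma dualB_dualB_sub {K : Set (Fin n → ℝ)} : K ⊆ dualB (dualB K) := fun k hk q hq => by
  rw [dotProduct_comm]
  exact hq k hk

end Vale.Agent.P248.MC.Trans
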